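import Vale.Agent.P302.Defs

namespace Vale.Agent.P302

open Finset

/-- The instance with integer sizes `l` and integer bin capacity `L`, scaled to capacity `1`. -/
def inst (l : List ℕ) (L : ℕ) : Fin l.length → ℚ := fun i => (l.get i : ℚ) / (L : ℚ)

/-! ### A verified exhaustive search -/

/-- Packability of a multiset of integer sizes into `k` bins of capacity `L`. -/
def MPack (L k : ℕ) (m : Multiset ℕ) : Prop :=
  ∃ bins : List (Multiset ℕ), bins.length = k ∧ bins.sum = m ∧ ∀ b ∈ bins, b.sum ≤ L

/-- All lists of left-over items obtained by completing the current bin (remaining capacity `cap`)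
with a sublist of `ys`. The final remaining capacity must be at most `slack`; after an item of size
`ban` has been skipped no item of that size is taken. -/
def chooseL (slack : ℕ) : ℕ → ℕ → List ℕ → List ℕ → List (List ℕ)
  | cap, _, [], acc => if cap ≤ slack then [acc.reverse] else []
  | cap, ban, y :: ys, acc =>
      if cap ≤ slack + (y :: ys).sum then
        (if y ≤ cap ∧ y ≠ ban then chooseL slack (cap - y) ban ys acc else [])
          ++ chooseL slack cap y ys (y :: acc)
      else []

/-- All lists of left-over items after removing one bin containing the first item,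
when `k` bins of capacity `L` are available. -/
def expand (L k : ℕ) : List ℕ → List (List ℕ)
  | [] => [[]]
  | x :: xs =>
      if x ≤ L ∧ (x :: xs).sum ≤ k * L then
        chooseL (k * L - (x :: xs).sum) (L - x) (L + 1) xs []
      else []

/-- Breadth first search over the lists of left-over items, one bin per layer. -/
def bfs (L : ℕ) : ℕ → List (List ℕ) → Bool
  | 0, sts => sts.any (fun st => st.isEmpty)
  | k + 1, sts => bfs L k ((sts.flatMap (expand L (k + 1))).dedup)

theorem chooseL_complete (slack : ℕ) :
    ∀ (ys : List ℕ) (cap ban : ℕ) (acc : List ℕ) (T R : Multiset ℕ),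
      (ys : Multiset ℕ) = T + R → T.sum ≤ cap → cap - T.sum ≤ slack → ban ∉ T →
      ∃ l ∈ chooseL slack cap ban ys acc, (l : Multiset ℕ) = R + (acc : Multiset ℕ) := by
  intro ys
  induction ys with
  | nil =>
    intro cap ban acc T R h _ hs _
    have h0 : T + R = 0 := by rw [← h]; rfl
    have hcard := congrArg Multiset.card h0
    simp only [Multiset.card_add, Multiset.card_zero] at hcard
    have hR : R = 0 := Multiset.card_eq_zero.1 (by omega)
    have hT : T = 0 := Multiset.card_eq_zero.1 (by omega)
    subst hR
    subst hT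
    simp only [Multiset.sum_zero, Nat.sub_zero] at hs
    refine ⟨acc.reverse, ?_, ?_⟩
    · simp [chooseL, hs]
    · rw [zero_add, Multiset.coe_reverse]
  | cons y ys ih =>
    intro cap ban acc T R h hT hs hban
    have hy : y ∈ T + R := by rw [← h]; simp
    have hsum : (y :: ys).sum = T.sum + R.sum := by
      rw [← Multiset.sum_add, ← h, Multiset.sum_coe]
    have hprune : cap ≤ slack + (y :: ys).sum := by omega
    by_cases hyT : y ∈ T
    · have hTe : T = y ::ₘ T.erase y := (Multiset.cons_erase hyT).symm
      have hTsum : T.sum = y + (T.erase y).sum := by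
        conv_lhs => rw [hTe]
        rw [Multiset.sum_cons]
      have hys : (ys : Multiset ℕ) = T.erase y + R := by
        have h2 : y ::ₘ (ys : Multiset ℕ) = y ::ₘ (T.erase y + R) := by
          rw [← Multiset.cons_add, ← hTe, ← h]; rfl
        exact (Multiset.cons_inj_right y).1 h2
      have hle : y ≤ cap := by omega
      have hne : y ≠ ban := by
        intro he; exact hban (he ▸ hyT)
      obtain ⟨l, hl, hl2⟩ := ih (cap - y) ban acc (T.erase y) R hys (by omega) (by omega)
        (fun hm => hban (Multiset.mem_of_mem_erase hm))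
      refine ⟨l, ?_, hl2⟩
      rw [chooseL, if_pos hprune, if_pos ⟨hle, hne⟩]
      exact List.mem_append_left _ hl
    · have hyR : y ∈ R := by
        rcases Multiset.mem_add.1 hy with h1 | h1
        · exact absurd h1 hyT
        · exact h1
      have hRe : R = y ::ₘ R.erase y := (Multiset.cons_erase hyR).symm
      have hys : (ys : Multiset ℕ) = T + R.erase y := by
        have h2 : y ::ₘ (ys : Multiset ℕ) = y ::ₘ (T + R.erase y) := by
          rw [← Multiset.add_cons, ← hRe, ← h]; rfl
        exact (Multiset.cons_inj_right y).1 h2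
      obtain ⟨l, hl, hl2⟩ := ih cap y (y :: acc) T (R.erase y) hys hT hs hyT
      refine ⟨l, ?_, ?_⟩
      · rw [chooseL, if_pos hprune]
        exact List.mem_append_right _ hl
      · rw [hl2, ← Multiset.cons_coe, Multiset.add_cons, ← Multiset.cons_add, ← hRe]

theorem mem_of_mem_list_sum {x : ℕ} : ∀ (bins : List (Multiset ℕ)), x ∈ bins.sum → ∃ b ∈ bins, x ∈ b := by
  intro bins
  induction bins with
  | nil => intro h; simp at h
  | cons b t ih =>
    intro h
    rw [List.sum_cons] at h
    rcases Multiset.mem_add.1 h with h1 | h1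
    · exact ⟨b, by simp, h1⟩
    · obtain ⟨b', hb', hx⟩ := ih h1
      exact ⟨b', by simp [hb'], hx⟩

theorem sum_list_sum_le (L : ℕ) : ∀ (bins : List (Multiset ℕ)), (∀ b ∈ bins, b.sum ≤ L) →
    (bins.sum).sum ≤ bins.length * L := by
  intro bins
  induction bins with
  | nil => intro _; simp
  | cons b t ih =>
    intro h
    rw [List.sum_cons, Multiset.sum_add, List.length_cons]
    have h1 := h b (by simp)
    have h2 := ih (fun b' hb' => h b' (by simp [hb']))
    nlinarith

theorem expand_complete (L k : ℕ) (st : List ℕ) (h : MPack L (k + 1) (st : Multiset ℕ)) :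
    ∃ st' ∈ expand L (k + 1) st, MPack L k (st' : Multiset ℕ) := by
  cases st with
  | nil =>
    refine ⟨[], by simp [expand], List.replicate k 0, by simp, by simp, ?_⟩
    intro b hb
    rw [List.eq_of_mem_replicate hb]; simp
  | cons x xs =>
    obtain ⟨bins, hlen, hsum, hb⟩ := h
    have hx : x ∈ bins.sum := by rw [hsum]; simp
    obtain ⟨b, hbm, hxb⟩ := mem_of_mem_list_sum bins hx
    have hbe : b = x ::ₘ b.erase x := (Multiset.cons_erase hxb).symm
    have hbsum : b.sum = x + (b.erase x).sum := by
      conv_lhs => rw [hbe]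
      rw [Multiset.sum_cons]
    have hbL := hb b hbm
    have herase : b + (bins.erase b).sum = bins.sum := List.sum_erase hbm
    have hxs : (xs : Multiset ℕ) = b.erase x + (bins.erase b).sum := by
      have h2 : x ::ₘ (xs : Multiset ℕ) = x ::ₘ (b.erase x + (bins.erase b).sum) := by
        rw [← Multiset.cons_add, ← hbe, herase, hsum]; rfl
      exact (Multiset.cons_inj_right x).1 h2
    have hlen' : (bins.erase b).length = k := by
      rw [List.length_erase_of_mem hbm, hlen]; rfl
    have hb' : ∀ b' ∈ bins.erase b, b'.sum ≤ L := fun b' hb' => hb b' (List.mem_of_mem_erase hb')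
    have hrest : ((bins.erase b).sum).sum ≤ k * L := by
      have h3 := sum_list_sum_le L (bins.erase b) hb'
      rw [hlen'] at h3
      exact h3
    have htotal : (x :: xs).sum = b.sum + ((bins.erase b).sum).sum := by
      rw [← Multiset.sum_add, herase, hsum, Multiset.sum_coe]
    have htot : (x :: xs).sum ≤ (k + 1) * L := by
      rw [htotal]; nlinarith
    have hxL : x ≤ L := by omega
    have hban : L + 1 ∉ b.erase x := by
      intro hm
      have h4 : L + 1 ≤ (b.erase x).sum := Multiset.single_le_sum (fun _ _ => Nat.zero_le _) _ hm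
      omega
    have hslack : L - x - (b.erase x).sum ≤ (k + 1) * L - (x :: xs).sum := by
      rw [htotal]
      have : (k + 1) * L = k * L + L := by ring
      omega
    obtain ⟨l, hl, hl2⟩ := chooseL_complete ((k + 1) * L - (x :: xs).sum) xs (L - x) (L + 1) []
      (b.erase x) ((bins.erase b).sum) hxs (by omega) hslack hban
    refine ⟨l, ?_, bins.erase b, hlen', ?_, hb'⟩
    · rw [expand, if_pos ⟨hxL, htot⟩]
      exact hl
    · rw [hl2]; simp

theorem bfs_complete (L : ℕ) : ∀ (k : ℕ) (sts : List (List ℕ)),
    (∃ st ∈ sts, MPack L k (st : Multiset ℕ)) → bfs L k sts = true := by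
  intro k
  induction k with
  | zero =>
    rintro sts ⟨st, hst, bins, hlen, hsum, _⟩
    have : bins = [] := List.length_eq_zero_iff.1 hlen
    subst this
    have h0 := congrArg Multiset.card hsum
    simp only [List.sum_nil, Multiset.card_zero, Multiset.coe_card] at h0
    have hnil : st = [] := List.length_eq_zero_iff.1 h0.symm
    subst hnil
    simp only [bfs, List.any_eq_true]
    exact ⟨[], hst, rfl⟩
  | succ k ih =>
    rintro sts ⟨st, hst, hp⟩
    obtain ⟨st', hst', hp'⟩ := expand_complete L k st hp
    rw [bfs]
    apply ih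
    refine ⟨st', ?_, hp'⟩
    rw [List.mem_dedup, List.mem_flatMap]
    exact ⟨st, hst, hst'⟩

theorem MPack.mono {L k K : ℕ} {m : Multiset ℕ} (h : MPack L k m) (hk : k ≤ K) : MPack L K m := by
  obtain ⟨bins, hlen, hsum, hb⟩ := h
  refine ⟨bins ++ List.replicate (K - k) 0, ?_, ?_, ?_⟩
  · simp [hlen]; omega
  · simp [hsum]
  · intro b hbm
    rcases List.mem_append.1 hbm with h1 | h1
    · exact hb b h1
    · rw [List.eq_of_mem_replicate h1]; simp

theorem sum_fibers_val {n k : ℕ} (f : Fin n → Fin k) :
    ∑ j : Fin k, (univ.filter (fun i => f i = j)).val = (univ : Finset (Fin n)).val := by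
  ext i
  rw [Multiset.count_sum']
  have h1 : ∀ j : Fin k, Multiset.count i (univ.filter (fun i => f i = j)).val = if f i = j then 1 else 0 := by
    intro j
    rw [Multiset.count_eq_of_nodup (Finset.nodup _)]
    simp
  simp only [h1]
  rw [Multiset.count_eq_of_nodup (Finset.nodup _)]
  simp

theorem mpack_of_packing (l : List ℕ) (L : ℕ) (hL : 0 < L) (k : ℕ) (f : Fin l.length → Fin k)
    (hf : IsPacking (inst l L) k f) : MPack L k (l : Multiset ℕ) := by
  refine ⟨List.ofFn (fun j : Fin k => (univ.filter (fun i => f i = j)).val.map l.get), ?_, ?_, ?_⟩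
  · simp
  · rw [List.sum_ofFn]
    have h1 : ∑ j : Fin k, (univ.filter (fun i => f i = j)).val.map l.get
        = Multiset.map l.get (∑ j : Fin k, (univ.filter (fun i => f i = j)).val) := by
      have h0 := map_sum (Multiset.mapAddMonoidHom l.get)
        (fun j : Fin k => (univ.filter (fun i => f i = j)).val) univ
      simp only [Multiset.coe_mapAddMonoidHom] at h0
      exact h0.symm
    rw [h1, sum_fibers_val, Fin.univ_val_map, List.ofFn_get]
  · intro b hb
    obtain ⟨j, rfl⟩ := (List.mem_ofFn' _ _).1 hb
    have h1 := hf j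
    have h2 : ((univ.filter (fun i => f i = j)).val.map l.get).sum = ∑ i ∈ univ.filter (fun i => f i = j), l.get i := rfl
    rw [h2]
    have hLq : (0 : ℚ) < (L : ℚ) := by exact_mod_cast hL
    simp only [inst] at h1
    rw [← Finset.sum_div, div_le_one hLq] at h1
    exact_mod_cast h1

theorem opt_ge (l : List ℕ) (L : ℕ) (hL : 0 < L) (K : ℕ) (hs : bfs L K [l] = false)
    (hle : ∀ x ∈ l, x ≤ L) : K + 1 ≤ opt (inst l L) := by
  unfold opt
  apply le_csInf
  · refine ⟨l.length, id, ?_⟩
    intro j
    have : univ.filter (fun i : Fin l.length => id i = j) = {j} := by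
      ext i; simp
    rw [this, Finset.sum_singleton]
    have hLq : (0 : ℚ) < (L : ℚ) := by exact_mod_cast hL
    simp only [inst]
    rw [div_le_one hLq]
    exact_mod_cast hle _ (List.get_mem l j)
  · intro k hk
    obtain ⟨f, hf⟩ := hk
    by_contra hlt
    have hkK : k ≤ K := by omega
    have := bfs_complete L K [l] ⟨l, by simp, (mpack_of_packing l L hL k f hf).mono hkK⟩
    rw [hs] at this
    exact Bool.false_ne_true this

/-! ### Upper bounds for the LP value from explicit fractional solutions -/

/-- The configuration given by a list of integer sizes. -/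
def cfg (L : ℕ) (q : List ℕ) : Multiset ℚ :=
  ((q.map (fun x : ℕ => (x : ℚ) / (L : ℚ)) : List ℚ) : Multiset ℚ)

/-- The fractional solution given by a list of pairs (numerator, pattern) and a common denominator. -/
noncomputable def sol (L D : ℕ) (pats : List (ℕ × List ℕ)) : Multiset ℚ →₀ ℝ :=
  (pats.map (fun p => Finsupp.single (cfg L p.2) ((p.1 : ℝ) / (D : ℝ)))).sum

theorem sol_sum (L D : ℕ) (g : Multiset ℚ → ℝ) : ∀ pats : List (ℕ × List ℕ),
    (sol L D pats).sum (fun c w => g c * w)
      = (pats.map (fun p => g (cfg L p.2) * ((p.1 : ℝ) / (D : ℝ)))).sum := by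
  intro pats
  induction pats with
  | nil => simp [sol]
  | cons p t ih =>
    have h : sol L D (p :: t) = Finsupp.single (cfg L p.2) ((p.1 : ℝ) / (D : ℝ)) + sol L D t := by
      simp [sol]
    rw [h, Finsupp.sum_add_index' (by intro a; simp) (by intro a b c; ring),
      Finsupp.sum_single_index (by simp), ih]
    simp

theorem sol_nonneg (L D : ℕ) : ∀ (pats : List (ℕ × List ℕ)) (c : Multiset ℚ), 0 ≤ sol L D pats c := by
  intro pats
  induction pats with
  | nil => intro c; simp [sol]
  | cons p t ih =>
    intro c
    have h : sol L D (p :: t) = Finsupp.single (cfg L p.2) ((p.1 : ℝ) / (D : ℝ)) + sol L D t := by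
      simp [sol]
    rw [h, Finsupp.add_apply]
    have h1 : 0 ≤ (Finsupp.single (cfg L p.2) ((p.1 : ℝ) / (D : ℝ))) c := by
      rw [Finsupp.single_apply]
      split_ifs
      · positivity
      · exact le_refl _
    exact add_nonneg h1 (ih c)

theorem sol_support (L D : ℕ) : ∀ (pats : List (ℕ × List ℕ)) (c : Multiset ℚ),
    sol L D pats c ≠ 0 → ∃ p ∈ pats, c = cfg L p.2 := by
  intro pats
  induction pats with
  | nil => intro c h; simp [sol] at h
  | cons p t ih =>
    intro c hc
    have h : sol L D (p :: t) = Finsupp.single (cfg L p.2) ((p.1 : ℝ) / (D : ℝ)) + sol L D t := by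
      simp [sol]
    rw [h, Finsupp.add_apply] at hc
    by_cases h1 : cfg L p.2 = c
    · exact ⟨p, by simp, h1.symm⟩
    · rw [Finsupp.single_apply, if_neg h1, zero_add] at hc
      obtain ⟨p', hp', hc'⟩ := ih c hc
      exact ⟨p', by simp [hp'], hc'⟩

theorem div_inj (L : ℕ) (hL : 0 < L) : Function.Injective (fun x : ℕ => (x : ℚ) / (L : ℚ)) := by
  intro x y h
  have hLq : (L : ℚ) ≠ 0 := by exact_mod_cast hL.ne'
  have h2 : (x : ℚ) = (y : ℚ) := by
    simp only at h
    field_simp at h
    exact h
  exact_mod_cast h2

theorem cfg_count (L : ℕ) (hL : 0 < L) (q : List ℕ) (x : ℕ) :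
    (cfg L q).count ((x : ℚ) / (L : ℚ)) = q.count x := by
  unfold cfg
  rw [Multiset.coe_count]
  exact List.count_map_of_injective q _ (div_inj L hL) x

theorem mult_inst (l : List ℕ) (L : ℕ) (hL : 0 < L) (i : Fin l.length) :
    mult (inst l L) (inst l L i) = l.count (l.get i) := by
  unfold mult
  have h1 : univ.filter (fun i' => inst l L i' = inst l L i) = univ.filter (fun i' => l.get i = l.get i') := by
    ext i'
    rw [mem_filter, mem_filter]
    constructor
    · rintro ⟨_, h⟩; exact ⟨mem_univ _, (div_inj L hL h).symm⟩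
    · rintro ⟨_, h⟩
      refine ⟨mem_univ _, ?_⟩
      show (l.get i' : ℚ) / (L : ℚ) = (l.get i : ℚ) / (L : ℚ)
      rw [h]
  rw [h1]
  have h2 : l.count (l.get i) = Multiset.count (l.get i) (Multiset.map l.get (univ : Finset (Fin l.length)).val) := by
    rw [Fin.univ_val_map, List.ofFn_get, Multiset.coe_count]
  rw [h2, Multiset.count_map]
  rfl

theorem lpVal_le (l : List ℕ) (L : ℕ) (hL : 0 < L) (pats : List (ℕ × List ℕ)) (D : ℕ) (hD : 0 < D)
    (h1 : ∀ p ∈ pats, p.2.sum ≤ L ∧ ∀ x ∈ p.2, x ∈ l)
    (h2 : ∀ x ∈ l, D * l.count x ≤ (pats.map (fun p => p.2.count x * p.1)).sum) :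
    lpVal (inst l L) ≤ ((pats.map Prod.fst).sum : ℝ) / (D : ℝ) := by
  unfold lpVal
  have hDr : (0 : ℝ) < (D : ℝ) := by exact_mod_cast hD
  have hLq : (0 : ℚ) < (L : ℚ) := by exact_mod_cast hL
  apply csInf_le
  · refine ⟨0, ?_⟩
    rintro v ⟨z, hz, rfl⟩
    exact Finset.sum_nonneg (fun c _ => hz.1 c)
  · refine ⟨sol L D pats, ⟨sol_nonneg L D pats, ?_, ?_⟩, ?_⟩
    · intro c hc
      obtain ⟨p, hp, rfl⟩ := sol_support L D pats c hc
      obtain ⟨hsum, hmem⟩ := h1 p hp
      constructor
      · intro s hs
        unfold cfg at hs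
        rw [Multiset.mem_coe, List.mem_map] at hs
        obtain ⟨x, hx, rfl⟩ := hs
        obtain ⟨i, hi⟩ := List.get_of_mem (hmem x hx)
        exact ⟨i, by simp only [inst, hi]⟩
      · unfold cfg
        rw [Multiset.sum_coe]
        have h3 : (p.2.map (fun x : ℕ => (x : ℚ) / (L : ℚ))).sum = ((p.2.sum : ℕ) : ℚ) / (L : ℚ) := by
          generalize p.2 = q
          induction q with
          | nil => simp
          | cons a t ih => simp only [List.map_cons, List.sum_cons, ih]; push_cast; ring
        rw [h3, div_le_one hLq]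
        exact_mod_cast hsum
    · intro i
      rw [sol_sum L D (fun c => (c.count (inst l L i) : ℝ)) pats, mult_inst l L hL i]
      have h3 := h2 (l.get i) (List.get_mem l i)
      have h4 : (pats.map (fun p => ((cfg L p.2).count (inst l L i) : ℝ) * ((p.1 : ℝ) / (D : ℝ)))).sum
          = (((pats.map (fun p => p.2.count (l.get i) * p.1)).sum : ℕ) : ℝ) / (D : ℝ) := by
        generalize pats = ps
        induction ps with
        | nil => simp
        | cons a t ih =>
          simp only [List.map_cons, List.sum_cons, ih]
          have : (cfg L a.2).count (inst l L i) = a.2.count (l.get i) := cfg_count L hL a.2 (l.get i)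
          rw [this]
          push_cast
          ring
      rw [h4, le_div_iff₀ hDr]
      have h5 : ((D * l.count (l.get i) : ℕ) : ℝ) ≤ (((pats.map (fun p => p.2.count (l.get i) * p.1)).sum : ℕ) : ℝ) := by
        exact_mod_cast h3
      push_cast at h5
      push_cast
      linarith
    · have h6 := sol_sum L D (fun _ => (1 : ℝ)) pats
      simp only [one_mul] at h6
      rw [h6]
      generalize pats = ps
      induction ps with
      | nil => simp
      | cons a t ih =>
        simp only [List.map_cons, List.sum_cons]
        rw [← ih]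
        push_cast
        ring

end Vale.Agent.P302
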