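import Vale.Agent.P302.Check

namespace Vale.Agent.P302

open Finset

theorem not_mpack_of_bfs (L K : ℕ) (l : List ℕ) (h : bfs L K [l] = false) :
    ¬ MPack L K (l : Multiset ℕ) := by
  intro hp
  have h2 := bfs_complete L K [l] ⟨l, by simp, hp⟩
  rw [h] at h2
  exact Bool.false_ne_true h2

theorem opt_ge_of_not_mpack (l : List ℕ) (L : ℕ) (hL : 0 < L) (K : ℕ)
    (hs : ¬ MPack L K (l : Multiset ℕ)) (hle : ∀ x ∈ l, x ≤ L) : K + 1 ≤ opt (inst l L) := by
  unfold opt
  apply le_csInf
  · refine ⟨l.length, id, ?_⟩
    intro j
    have : univ.filter (fun i : Fin l.length => id i = j) = {j} := by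
      ext i; simp
    rw [this, Finset.sum_singleton]
    have hLq : (0 : ℚ) < (L : ℚ) := by exact_mod_cast hL
    simp only [inst]
    rw [div_le_one hLq]
    exact_mod_cast hle _ (List.get_mem l j)
  · intro k hk
    obtain ⟨f, hf⟩ := hk
    by_contra hlt
    have hkK : k ≤ K := by omega
    exact hs ((mpack_of_packing l L hL k f hf).mono hkK)

theorem list_sum_map_map (g : ℕ → ℕ) : ∀ bins : List (Multiset ℕ),
    (bins.map (Multiset.map g)).sum = (bins.sum).map g := by
  intro bins
  induction bins with
  | nil => simp
  | cons b t ih => simp [ih, Multiset.map_add]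

/-- Shrinking items keeps an instance packable. -/
theorem MPack.map_le {L k : ℕ} {m : Multiset ℕ} (g : ℕ → ℕ) (hg : ∀ x, g x ≤ x)
    (h : MPack L k m) : MPack L k (m.map g) := by
  obtain ⟨bins, hlen, hsum, hb⟩ := h
  refine ⟨bins.map (Multiset.map g), by simp [hlen], ?_, ?_⟩
  · rw [list_sum_map_map, hsum]
  · intro b hb'
    obtain ⟨b0, hb0, rfl⟩ := List.mem_map.1 hb'
    have h1 : (b0.map g).sum ≤ (b0.map id).sum :=
      Multiset.sum_map_le_sum_map g id (fun i _ => hg i)
    rw [Multiset.map_id] at h1
    exact le_trans h1 (hb b0 hb0)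

/-- Peeling off the bins of the carriers `C`: each of them contains, besides its carrier, only items
with property `P`. -/
theorem peel (L z : ℕ) (P : ℕ → Prop) [DecidablePred P] :
    ∀ (C : List ℕ) (m : Multiset ℕ),
      (∀ c ∈ C, ¬ P c) →
      (∀ c ∈ C, ∀ y ∈ (C : Multiset ℕ) + m, ¬ P y → L < c + y) →
      MPack L (C.length + z) ((C : Multiset ℕ) + m) →
      ∃ T, T ≤ m.filter P ∧ MPack L C.length ((C : Multiset ℕ) + T) ∧ MPack L z (m - T) := by
  intro C
  induction C with
  | nil =>
    intro m _ _ h
    refine ⟨0, by simp, ⟨[], rfl, by simp, by simp⟩, ?_⟩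
    simpa using h
  | cons c C ih =>
    intro m hP hbig h
    obtain ⟨bins, hlen, hsum, hb⟩ := h
    have hcs : ((c :: C : List ℕ) : Multiset ℕ) = c ::ₘ (C : Multiset ℕ) := rfl
    have hx : c ∈ bins.sum := by rw [hsum, hcs]; simp
    obtain ⟨b, hbm, hcb⟩ := mem_of_mem_list_sum bins hx
    have hbe : b = c ::ₘ b.erase c := (Multiset.cons_erase hcb).symm
    have hbsum : b.sum = c + (b.erase c).sum := by
      conv_lhs => rw [hbe]
      rw [Multiset.sum_cons]
    have hbL := hb b hbm
    have herase : b + (bins.erase b).sum = bins.sum := List.sum_erase hbm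
    have hrest : b.erase c + (bins.erase b).sum = (C : Multiset ℕ) + m := by
      have h2 : c ::ₘ (b.erase c + (bins.erase b).sum) = c ::ₘ ((C : Multiset ℕ) + m) := by
        rw [← Multiset.cons_add, ← hbe, herase, hsum, hcs, Multiset.cons_add]
      exact (Multiset.cons_inj_right c).1 h2
    -- all other items of the bin have property P
    have hall : ∀ y ∈ b.erase c, P y := by
      intro y hy
      by_contra hny
      have hy2 : y ∈ ((c :: C : List ℕ) : Multiset ℕ) + m := by
        rw [hcs, Multiset.cons_add, ← hrest]
        exact Multiset.mem_cons_of_mem (Multiset.mem_add.2 (Or.inl hy))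
      have h3 := hbig c (by simp) y hy2 hny
      have h4 : y ≤ (b.erase c).sum := Multiset.single_le_sum (fun _ _ => Nat.zero_le _) _ hy
      omega
    have hfb : (b.erase c).filter P = b.erase c := Multiset.filter_eq_self.2 hall
    have hfC : (C : Multiset ℕ).filter P = 0 := by
      rw [Multiset.filter_eq_nil]
      intro y hy
      exact hP y (by simp [Multiset.mem_coe.1 hy])
    have hle1 : b.erase c ≤ m.filter P := by
      have h5 : b.erase c ≤ (C : Multiset ℕ) + m := by
        rw [← hrest]; exact Multiset.le_add_right _ _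
      have h6 := Multiset.filter_le_filter P h5
      rw [hfb, Multiset.filter_add, hfC, zero_add] at h6
      exact h6
    have hle2 : b.erase c ≤ m := le_trans hle1 (Multiset.filter_le _ _)
    have hm : m = b.erase c + (m - b.erase c) := (add_tsub_cancel_of_le hle2).symm
    have hrest2 : (bins.erase b).sum = (C : Multiset ℕ) + (m - b.erase c) := by
      have h7 : b.erase c + (bins.erase b).sum = b.erase c + ((C : Multiset ℕ) + (m - b.erase c)) := by
        rw [hrest]
        conv_lhs => rw [hm]
        rw [add_left_comm]
      exact add_left_cancel h7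
    have hlen' : (bins.erase b).length = C.length + z := by
      rw [List.length_erase_of_mem hbm, hlen]
      simp only [List.length_cons]
      omega
    have hb' : ∀ b' ∈ bins.erase b, b'.sum ≤ L := fun b' hb' => hb b' (List.mem_of_mem_erase hb')
    obtain ⟨T, hT, hp1, hp2⟩ := ih (m - b.erase c) (fun c' hc' => hP c' (by simp [hc']))
      (by
        intro c' hc' y hy hny
        apply hbig c' (by simp [hc']) y _ hny
        rw [hcs, Multiset.cons_add]
        apply Multiset.mem_cons_of_mem
        rcases Multiset.mem_add.1 hy with h8 | h8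
        · exact Multiset.mem_add.2 (Or.inl h8)
        · exact Multiset.mem_add.2 (Or.inr (Multiset.mem_of_le (Multiset.sub_le_self _ _) h8)))
      ⟨bins.erase b, hlen', hrest2, hb'⟩
    refine ⟨b.erase c + T, ?_, ?_, ?_⟩
    · have h9 : m.filter P = b.erase c + (m - b.erase c).filter P := by
        conv_lhs => rw [hm]
        rw [Multiset.filter_add, hfb]
      rw [h9]
      exact add_le_add (le_refl _) hT
    · obtain ⟨bins1, hl1, hs1, hb1⟩ := hp1
      refine ⟨b :: bins1, by simp [hl1], ?_, ?_⟩
      · rw [List.sum_cons, hs1, hcs]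
        conv_lhs => rw [hbe]
        simp only [Multiset.cons_add]
        congr 1
        rw [add_left_comm]
      · intro b' hb''
        rcases List.mem_cons.1 hb'' with h10 | h10
        · rw [h10]; exact hbL
        · exact hb1 b' h10
    · have h11 : m - (b.erase c + T) = m - b.erase c - T := by
        rw [tsub_add_eq_tsub_tsub]
      rw [h11]
      exact hp2

/-- Composition: carriers `C`, small items `S`, big items `B`.  If at most `ν` small items can ride
with the carriers, and the big items together with any `j ≥ |S| - ν` copies of the smallest small size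
cannot be packed into `z` bins, then everything cannot be packed into `|C| + z` bins. -/
theorem compose (L z ν thr smin : ℕ) (C S B : List ℕ)
    (hS : ∀ x ∈ S, smin ≤ x ∧ x ≤ thr) (hC : ∀ x ∈ C, thr < x) (hB : ∀ x ∈ B, thr < x)
    (hCC : ∀ c ∈ C, ∀ y ∈ C ++ B, L < c + y)
    (hgad : ∀ j ∈ List.range (S.length + 1), ν < j →
      ∀ T ∈ S.sublistsLen j, bfs L C.length [C ++ T] = false)
    (hE0 : ∀ j ∈ List.range (S.length + 1), S.length ≤ ν + j →
      bfs L z [B ++ List.replicate j smin] = false) :
    ¬ MPack L (C.length + z) ((C ++ (S ++ B) : List ℕ) : Multiset ℕ) := by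
  intro hp
  have hcoe : ((C ++ (S ++ B) : List ℕ) : Multiset ℕ) = (C : Multiset ℕ) + ((S : Multiset ℕ) + (B : Multiset ℕ)) := by
    simp
  rw [hcoe] at hp
  obtain ⟨T, hT, hp1, hp2⟩ := peel L z (fun x => x ≤ thr) C ((S : Multiset ℕ) + (B : Multiset ℕ))
    (fun c hc => by have := hC c hc; omega)
    (by
      intro c hc y hy hny
      apply hCC c hc y
      rcases Multiset.mem_add.1 hy with h1 | h1
      · exact List.mem_append.2 (Or.inl (Multiset.mem_coe.1 h1))
      · rcases Multiset.mem_add.1 h1 with h2 | h2
        · exact absurd (hS y (Multiset.mem_coe.1 h2)).2 hny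
        · exact List.mem_append.2 (Or.inr (Multiset.mem_coe.1 h2)))
    hp
  have hfS : (S : Multiset ℕ).filter (fun x => x ≤ thr) = (S : Multiset ℕ) :=
    Multiset.filter_eq_self.2 (fun x hx => (hS x (Multiset.mem_coe.1 hx)).2)
  have hfB : (B : Multiset ℕ).filter (fun x => x ≤ thr) = 0 := by
    rw [Multiset.filter_eq_nil]
    intro y hy
    have := hB y (Multiset.mem_coe.1 hy)
    omega
  rw [Multiset.filter_add, hfS, hfB, add_zero] at hT
  induction T using Quot.inductionOn with
  | h l =>
    have hT' : (l : Multiset ℕ) ≤ (S : Multiset ℕ) := hT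
    obtain ⟨l', hperm, hsub⟩ := Multiset.coe_le.1 hT'
    have hll : (l' : Multiset ℕ) = (l : Multiset ℕ) := Multiset.coe_eq_coe.2 hperm
    by_cases hν : ν < l'.length
    · have h1 := hgad l'.length (List.mem_range.2 (Nat.lt_succ_of_le hsub.length_le)) hν l'
        (List.mem_sublistsLen.2 ⟨hsub, rfl⟩)
      apply not_mpack_of_bfs L C.length (C ++ l') h1
      have h2 : ((C ++ l' : List ℕ) : Multiset ℕ) = (C : Multiset ℕ) + (l : Multiset ℕ) := by
        rw [← hll]; simp
      rw [h2]
      exact hp1
    · have hsplit : (S : Multiset ℕ) + (B : Multiset ℕ) - (l : Multiset ℕ)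
          = ((S : Multiset ℕ) - (l : Multiset ℕ)) + (B : Multiset ℕ) := by
        exact tsub_add_eq_add_tsub hT' |>.symm
      have hp3 : MPack L z (((S : Multiset ℕ) - (l : Multiset ℕ)) + (B : Multiset ℕ)) := by
        rw [← hsplit]; exact hp2
      set U : Multiset ℕ := (S : Multiset ℕ) - (l : Multiset ℕ) with hU
      have hUcard : Multiset.card U = S.length - l'.length := by
        rw [hU, Multiset.card_sub hT', Multiset.coe_card, Multiset.coe_card, hperm.length_eq]
      have hlen_le : l'.length ≤ S.length := hsub.length_le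
      have hUmem : ∀ x ∈ U, smin ≤ x ∧ x ≤ thr := fun x hx =>
        hS x (Multiset.mem_coe.1 (Multiset.mem_of_le (Multiset.sub_le_self _ _) hx))
      let g : ℕ → ℕ := fun x => if smin ≤ x ∧ x ≤ thr then smin else x
      have hg : ∀ x, g x ≤ x := by
        intro x
        simp only [g]
        split_ifs with h
        · exact h.1
        · exact le_refl _
      have hp4 := hp3.map_le g hg
      have hUg : U.map g = Multiset.replicate (Multiset.card U) smin := by
        rw [Multiset.eq_replicate]
        refine ⟨by simp, ?_⟩
        intro y hy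
        obtain ⟨x, hx, rfl⟩ := Multiset.mem_map.1 hy
        simp only [g]
        rw [if_pos (hUmem x hx)]
      have hBg : (B : Multiset ℕ).map g = (B : Multiset ℕ) := by
        have : (B : Multiset ℕ).map g = (B : Multiset ℕ).map id := by
          apply Multiset.map_congr rfl
          intro x hx
          have := hB x (Multiset.mem_coe.1 hx)
          simp only [g, id]
          rw [if_neg (by omega)]
        rw [this, Multiset.map_id]
      rw [Multiset.map_add, hUg, hBg, hUcard] at hp4
      have h5 := hE0 (S.length - l'.length) (List.mem_range.2 (by omega)) (by omega)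
      apply not_mpack_of_bfs L z _ h5
      have h6 : ((B ++ List.replicate (S.length - l'.length) smin : List ℕ) : Multiset ℕ)
          = Multiset.replicate (S.length - l'.length) smin + (B : Multiset ℕ) := by
        rw [← Multiset.coe_add, Multiset.coe_replicate, add_comm]
      rw [h6]
      exact hp4

end Vale.Agent.P302
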