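import Mathlib

namespace Vale.Agent.P302

open Finset

/-- `f` assigns the `n` items with sizes `a` to `k` bins so that every bin receives total size at most `1`. -/
def IsPacking {n : ℕ} (a : Fin n → ℚ) (k : ℕ) (f : Fin n → Fin k) : Prop :=
  ∀ j : Fin k, ∑ i ∈ univ.filter (fun i => f i = j), a i ≤ 1

/-- The least number of bins into which the items can be packed. -/
noncomputable def opt {n : ℕ} (a : Fin n → ℚ) : ℕ :=
  sInf {k : ℕ | ∃ f : Fin n → Fin k, IsPacking a k f}

/-- The multiplicity of the size `s` in the instance `a`. -/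
def mult {n : ℕ} (a : Fin n → ℚ) (s : ℚ) : ℕ := (univ.filter (fun i => a i = s)).card

/-- A configuration: a multiset of sizes occurring in the instance, of total size at most `1`
(a size may be repeated more often than its multiplicity). -/
def IsConfig {n : ℕ} (a : Fin n → ℚ) (c : Multiset ℚ) : Prop :=
  (∀ s ∈ c, ∃ i, a i = s) ∧ c.sum ≤ 1

/-- Feasible solutions of the Gilmore-Gomory configuration LP: nonnegative weights, carried by
finitely many configurations, covering every size at least as often as its multiplicity. -/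
def IsFeasible {n : ℕ} (a : Fin n → ℚ) (z : Multiset ℚ →₀ ℝ) : Prop :=
  (∀ c, 0 ≤ z c) ∧ (∀ c, z c ≠ 0 → IsConfig a c) ∧
    ∀ i, (mult a (a i) : ℝ) ≤ z.sum (fun c w => (c.count (a i) : ℝ) * w)

/-- The value of the configuration LP. -/
noncomputable def lpVal {n : ℕ} (a : Fin n → ℚ) : ℝ :=
  sInf {v : ℝ | ∃ z : Multiset ℚ →₀ ℝ, IsFeasible a z ∧ v = z.sum (fun _ w => w)}

end Vale.Agent.P302
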